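import Vale.Agent.P352G42.Soft
import Vale.Agent.P352G44.Spec

/-!
# P352G, row SOFT
-/

set_option linter.all false

noncomputable section

namespace Vale.Agent.P352G42

theorem soft (H : Type*) [NormedAddCommGroup H] [InnerProductSpace ℂ H] [CompleteSpace H] :
    P352G44.SOFT H := by
  intro M ξ E W κ s hκ hu ha hc hx hd hD z
  have h0 : W 0 = 1 := by
    have h1 := ha 0 0
    rw [add_zero] at h1
    rw [← (hu 0).1]
    nth_rewrite 3 [h1]
    rw [← mul_assoc, (hu 0).1, one_mul]
  have hs : ∀ t, star (W t) = W (-t) := fun t => by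
    rw [← mul_one (star (W t)), ← h0, ← add_neg_cancel t, ha, ← mul_assoc, (hu t).1, one_mul]
  have h : Dil E κ fun t z => W t z :=
    ⟨fun s t z => by rw [ha]; rfl, fun z => by rw [h0]; rfl, fun t u v => by
      rw [← ContinuousLinearMap.adjoint_inner_right, ← ContinuousLinearMap.star_eq_adjoint,
        ← ContinuousLinearMap.mul_apply, (hu t).1]; rfl, hc,
      fun t u z => DFunLike.congr_fun (hd t u) z⟩
  refine h.conj hκ (fun t => (W t).continuous) (hD.mono ?_) z
  rintro _ ⟨x, h1, h2, rfl⟩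
  refine ⟨x, h1, rfl, _, h2, ?_, ?_⟩
  · show W s (x (W (-s) ξ)) = _
    rw [hx]
  · rw [star_mul, star_mul, hs, hs, neg_neg]
    show W s (star x (W (-s) ξ)) = _
    rw [hx]

end Vale.Agent.P352G42
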