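import Vale.Agent.P352.BW.Mb

/-!
# P352G: the modular conjugation inverts the groups which are dilated by the modular group
-/

set_option linter.all false

noncomputable section

open MeasureTheory Filter Topology Set Complex
open scoped ComplexConjugate BoundedContinuousFunction

namespace Vale.Agent.P352G42

open Vale.Agent.P352.BW
open Vale.Agent.P132 (ModData expB)

/-- uniqueness on the strip, without a bound -/
theorem zero_low {f : ℂ → ℂ} (hd : DifferentiableOn ℂ f {z | -(1 / 2) < z.im ∧ z.im < 0})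
    (hc : ContinuousOn f {z | -(1 / 2) ≤ z.im ∧ z.im ≤ 0}) (h0 : ∀ t : ℝ, f t = 0) :
    f (-(I / 2)) = 0 := by
  let K : Set ℂ := Icc (-1 : ℝ) 1 ×ℂ Icc (-(1 / 2) : ℝ) 0
  let U : Set ℂ := Ioo (-1 : ℝ) 1 ×ℂ Ioo (-(1 / 2) : ℝ) 0
  have hK : IsCompact K := isCompact_Icc.reProdIm isCompact_Icc
  have hKs : K ⊆ {z | -(1 / 2) ≤ z.im ∧ z.im ≤ 0} := fun z hz => hz.2
  have hU : IsOpen U := isOpen_Ioo.reProdIm isOpen_Ioo
  have hUK : closure U ⊆ K := closure_minimal
    (fun z hz => ⟨Ioo_subset_Icc_self hz.1, Ioo_subset_Icc_self hz.2⟩) hK.isClosed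
  obtain ⟨C, hC⟩ := hK.exists_bound_of_continuousOn (hc.mono hKs)
  have key : ∀ y ∈ Ioo (-(1 / 2) : ℝ) 0, f (y * I) = 0 := by
    intro y hy
    have hz : (y * I : ℂ) ∈ U := ⟨by simp, by simpa using hy⟩
    have h1 : ∀ n : ℕ, ‖f (y * I)‖ * Real.exp (n * (y + 1 / 2) ^ 2) ≤ C := by
      intro n
      have e : ∀ z : ℂ, ‖f z * exp (-(n * (z + I / 2) ^ 2))‖ =
          ‖f z‖ * Real.exp (n * ((z.im + 1 / 2) ^ 2 - z.re ^ 2)) := fun z => by
        rw [norm_mul, norm_exp]
        congr 2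
        simp [pow_two]
        ring
      have h2 := Complex.norm_le_of_forall_mem_frontier_norm_le
        (f := fun z => f z * exp (-(n * (z + I / 2) ^ 2))) (U := U) (C := C)
        (hK.isBounded.subset (subset_closure.trans hUK))
        ⟨(hd.mono fun z hz => hz.2).mul (by fun_prop),
          (hc.mono (hUK.trans hKs)).mul (by fun_prop)⟩ (fun z hz => ?_) (subset_closure hz)
      · rw [e] at h2
        simpa using h2
      · rw [hU.frontier_eq] at hz
        have hk := hUK hz.1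
        have h3 := hC z hk
        obtain ⟨⟨a1, a2⟩, b1, b2⟩ := hk
        by_cases h4 : z.im = 0
        · have : z = (z.re : ℂ) := Complex.ext (by simp) (by simpa using h4)
          show ‖f z * _‖ ≤ C
          rw [this, h0, zero_mul, norm_zero]
          exact (norm_nonneg _).trans h3
        have h5 : (z.im + 1 / 2) ^ 2 - z.re ^ 2 ≤ 0 := by
          by_contra h5
          refine hz.2 ⟨⟨?_, ?_⟩, ?_, lt_of_le_of_ne b2 h4⟩ <;> by_contra h6 <;> nlinarith
        rw [e]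
        refine le_trans (mul_le_of_le_one_right (norm_nonneg _) ?_) h3
        exact Real.exp_le_one_iff.2 (mul_nonpos_of_nonneg_of_nonpos n.cast_nonneg h5)
    by_contra hne
    have hp : 0 < ‖f (y * I)‖ * (y + 1 / 2) ^ 2 :=
      mul_pos (norm_pos_iff.2 hne) (pow_pos (by linarith [hy.1]) 2)
    obtain ⟨n, hn⟩ := exists_nat_gt (C / (‖f (y * I)‖ * (y + 1 / 2) ^ 2))
    rw [div_lt_iff₀ hp] at hn
    have h3 := Real.add_one_le_exp (n * (y + 1 / 2) ^ 2)
    have h4 := h1 n
    nlinarith [norm_nonneg (f (y * I))]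
  have h2 : EqOn (fun y : ℝ => f (y * I)) (fun _ => 0) (Icc (-(1 / 2)) 0) :=
    EqOn.of_subset_closure key
      (hc.comp (by fun_prop) fun y hy => by simpa using hy) continuousOn_const
      Ioo_subset_Icc_self (by rw [closure_Ioo (by norm_num)])
  have h3 := h2 (left_mem_Icc.2 (by norm_num))
  convert h3 using 2
  push_cast
  ring

/-- Gaussian averages are entire functions of the centre -/
theorem gauss_diff {E : Type*} [NormedAddCommGroup E] [NormedSpace ℂ E] [CompleteSpace E]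
    {g : ℝ → E} (hg : Continuous g) {C : ℝ} (hC : ∀ r, ‖g r‖ ≤ C) :
    Differentiable ℂ fun ζ : ℂ => ∫ r : ℝ, exp (-(r + ζ) ^ 2) • g r := by
  intro ζ0
  set R : ℝ := ‖ζ0‖ + 1
  have hb : ∀ (r : ℝ), ∀ ζ ∈ Metric.ball ζ0 1, ‖exp (-(r + ζ) ^ 2)‖ * (1 + ‖(r : ℂ) + ζ‖) ≤
      Real.exp (1 + R + 2 * R ^ 2) * Real.exp (-(1 / 4) * r ^ 2) := by
    intro r ζ hζ
    have h1 : ‖ζ‖ ≤ R := by
      have := norm_le_norm_add_norm_sub' ζ ζ0
      rw [mem_ball_iff_norm] at hζ
      linarith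
    have h2 : ‖(r : ℂ) + ζ‖ ≤ |r| + R := (norm_add_le _ _).trans (by simpa using h1)
    have h3 := abs_le.1 ((abs_re_le_norm ζ).trans h1)
    have h4 := abs_le.1 ((abs_im_le_norm ζ).trans h1)
    have h5 := Real.add_one_le_exp (|r| + R)
    rw [norm_exp, ← Real.exp_add]
    refine (mul_le_mul_of_nonneg_left (show _ ≤ Real.exp (|r| + R) by linarith)
      (Real.exp_pos _).le).trans ?_
    rw [← Real.exp_add]
    refine Real.exp_le_exp.2 ?_
    have e : (-((r : ℂ) + ζ) ^ 2).re = ζ.im ^ 2 - (r + ζ.re) ^ 2 := by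
      simp [pow_two]
    rw [e]
    nlinarith [sq_nonneg (|r| - 2), sq_abs r, sq_nonneg (r + 2 * ζ.re)]
  have hC0 : 0 ≤ C := (norm_nonneg _).trans (hC 0)
  have hi : Integrable fun r : ℝ => 2 * C *
      (Real.exp (1 + R + 2 * R ^ 2) * Real.exp (-(1 / 4) * r ^ 2)) :=
    ((integrable_exp_neg_mul_sq (by norm_num : (0 : ℝ) < 1 / 4)).const_mul _).const_mul _
  refine (hasDerivAt_integral_of_dominated_loc_of_deriv_le (μ := volume)
    (F := fun (ζ : ℂ) (r : ℝ) => exp (-(r + ζ) ^ 2) • g r)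
    (F' := fun (ζ : ℂ) (r : ℝ) => (exp (-(r + ζ) ^ 2) * -(2 * (r + ζ))) • g r)
    (Metric.ball_mem_nhds ζ0 one_pos)
    (Eventually.of_forall fun ζ => Continuous.aestronglyMeasurable (by fun_prop)) ?_
    (Continuous.aestronglyMeasurable (by fun_prop)) (ae_of_all _ fun r ζ hζ => ?_) hi
    (ae_of_all _ fun r ζ _ => ?_)).2.differentiableAt
  · refine hi.mono' (Continuous.aestronglyMeasurable (by fun_prop)) (ae_of_all _ fun r => ?_)
    have h1 := hb r ζ0 (Metric.mem_ball_self one_pos)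
    have h2 := hC r
    rw [norm_smul]
    have h3 := norm_nonneg (exp (-((r : ℂ) + ζ0) ^ 2))
    have h4 := mul_nonneg h3 (norm_nonneg ((r : ℂ) + ζ0))
    nlinarith [mul_le_mul_of_nonneg_left h2 h3, mul_le_mul_of_nonneg_left h1 hC0,
      mul_nonneg hC0 h4, mul_nonneg hC0 h3]
  · have h1 := hb r ζ hζ
    have h2 := hC r
    rw [norm_smul, norm_mul, norm_neg, norm_mul, Complex.norm_two]
    have h3 := norm_nonneg (exp (-((r : ℂ) + ζ) ^ 2))
    have h4 := mul_nonneg h3 (norm_nonneg ((r : ℂ) + ζ))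
    nlinarith [mul_le_mul_of_nonneg_left h2 h4, mul_le_mul_of_nonneg_left h1 hC0,
      mul_nonneg hC0 h3]
  · refine HasDerivAt.smul_const ?_ _
    have h1 := (((hasDerivAt_id ζ).const_add (r : ℂ)).pow 2).neg.cexp
    simpa using h1

variable {H : Type*} [NormedAddCommGroup H] [InnerProductSpace ℂ H] [CompleteSpace H]
variable {M : VonNeumannAlgebra H} {ξ : H}

/-- the vector valued KMS function -/
theorem kms_vec (E : ModData M ξ) {X : H →L[ℂ] H} (hX : X ∈ M) : ∃ φ : ℂ → H,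
    DifferentiableOn ℂ φ {z | -(1 / 2) < z.im ∧ z.im < 0} ∧
    ContinuousOn φ {z | -(1 / 2) ≤ z.im ∧ z.im ≤ 0} ∧ (∀ t : ℝ, φ t = E.U t (X ξ)) ∧
    φ (-(I / 2)) = E.J (star X ξ) := by
  have B : BStmt E := bblock E
  have hat : ∀ t h : ℝ, Real.exp (h / 2) * At (t : ℂ) h = (expB t - At (t : ℂ)) h := by
    intro t h
    have h1 := B.at_apply (t : ℂ) h (by norm_num) (by simp)
    rw [BoundedContinuousFunction.coe_sub, Pi.sub_apply, h1, Vale.Agent.P132.expB_apply]
    have h2 : ((1 + Real.exp (h / 2) : ℝ) : ℂ) ≠ 0 := Complex.ofReal_ne_zero.2 (by positivity)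
    field_simp
    push_cast
    ring_nf
  have hat2 : At (-(I / 2)) = expB 0 - At ((0 : ℝ) : ℂ) := by
    ext h
    rw [← hat]
    have h1 := B.at_apply ((0 : ℝ) : ℂ) h (by norm_num) (by simp)
    have h3 := B.at_apply (-(I / 2)) h (by norm_num) (by norm_num)
    rw [h3, h1]
    have h2 : ((1 + Real.exp (h / 2) : ℝ) : ℂ) ≠ 0 := Complex.ofReal_ne_zero.2 (by positivity)
    rw [mul_div_assoc', Complex.ofReal_exp, ← Complex.exp_add]
    congr 2
    push_cast
    ring_nf
    rw [Complex.I_sq]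
    ring
  have hk : ∀ t : ℝ, E.Th (At (t : ℂ)) (E.J (star X ξ)) =
      E.Th (expB t - At (t : ℂ)) (X ξ) := fun t => E.kms X hX _ _ (fun h => (hat t h).symm)
  refine ⟨fun z => E.Th (At z) (X ξ + E.J (star X ξ)), B.at_diff.clm_apply
    (differentiableOn_const _), B.at_cont _, fun t => ?_, ?_⟩
  · show E.Th (At (t : ℂ)) _ = _
    rw [map_add, hk t, ← ContinuousLinearMap.add_apply, ← map_add, add_sub_cancel]
    rfl
  · show E.Th (At (-(I / 2))) _ = _
    rw [hat2, map_add, ← hk 0, ← ContinuousLinearMap.add_apply, ← map_add, add_sub_cancel]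
    exact DFunLike.congr_fun E.U_zero _

/-- a strongly continuous group of isometries which is dilated by the modular group -/
structure Dil (E : ModData M ξ) (c : ℝ) (W : ℝ → H → H) : Prop where
  add : ∀ s t z, W (s + t) z = W s (W t z)
  zero : ∀ z, W 0 z = z
  inn : ∀ s u v, inner ℂ (W s u) (W s v) = inner ℂ u v
  cont : ∀ z, Continuous fun s => W s z
  dil : ∀ t s z, E.U t (W s z) = W (Real.exp (c * t) * s) (E.U t z)

variable {E : ModData M ξ} {c : ℝ} {W : ℝ → H → H}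

theorem Dil.adj (h : Dil E c W) (s : ℝ) (u v : H) :
    inner ℂ u (W s v) = inner ℂ (W (-s) u) v := by
  rw [← h.inn s (W (-s) u), ← h.add, add_neg_cancel, h.zero]

theorem Dil.nrm (h : Dil E c W) (s : ℝ) (u : H) : ‖W s u‖ = ‖u‖ := by
  rw [norm_eq_sqrt_re_inner (𝕜 := ℂ), h.inn, ← norm_eq_sqrt_re_inner]

theorem Dil.scale (h : Dil E c W) (a : ℝ) : Dil E c fun s => W (a * s) :=
  ⟨fun s t z => by rw [mul_add, h.add], fun z => by rw [mul_zero, h.zero], fun s => h.inn _,
    fun z => (h.cont z).comp (by fun_prop), fun t s z => by rw [h.dil, mul_left_comm]⟩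

theorem Dil.int (h : Dil E c W) (y v : H) (ζ : ℂ) :
    (∫ r : ℝ, exp (-(r + ζ) ^ 2) • innerSL ℂ (W r y)) v =
      ∫ r : ℝ, exp (-(r + ζ) ^ 2) * inner ℂ (W r y) v := by
  have hc := h.cont y
  rw [ContinuousLinearMap.integral_apply]
  · rfl
  · have hi := (integrable_cexp_quadratic (b := 1) (by simp) (-(2 * ζ)) (-ζ ^ 2)).norm.mul_const ‖y‖
    refine hi.mono' (Continuous.aestronglyMeasurable (by fun_prop)) (ae_of_all _ fun r => ?_)
    rw [norm_smul, innerSL_apply_norm, h.nrm]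
    refine le_of_eq ?_
    congr 3
    ring

theorem Dil.shift (h : Dil E c W) (y v : H) (s : ℝ) :
    ∫ r : ℝ, exp (-((r : ℂ) + (s : ℝ)) ^ 2) * inner ℂ (W r y) v =
      ∫ r : ℝ, exp (-((r : ℂ) + 0) ^ 2) * inner ℂ (W r y) (W s v) := by
  rw [← integral_add_right_eq_self _ (-s)]
  refine integral_congr_ae (ae_of_all _ fun r => ?_)
  show _ * _ = _ * _
  rw [h.adj s, ← h.add, add_comm (-s)]
  congr 2
  push_cast
  ring

theorem Dil.avg (h : Dil E c W) (hc : c = 2 * Real.pi ∨ c = -(2 * Real.pi)) {s : ℝ}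
    {X Y : H →L[ℂ] H} (hX : X ∈ M) (hY : Y ∈ M) (e : Y ξ = W s (X ξ)) (y : H) :
    ∫ r : ℝ, exp (-((r : ℂ) + 0) ^ 2) * inner ℂ (W r y) (E.J (star Y ξ)) =
      ∫ r : ℝ, exp (-((r : ℂ) + 0) ^ 2) * inner ℂ (W r y) (W (-s) (E.J (star X ξ))) := by
  obtain ⟨φ, a1, a2, a3, a4⟩ := kms_vec E hX
  obtain ⟨ψ, b1, b2, b3, b4⟩ := kms_vec E hY
  let L : ℂ → H →L[ℂ] ℂ := fun ζ => ∫ r : ℝ, exp (-(r + ζ) ^ 2) • innerSL ℂ (W r y)
  have hL : Differentiable ℂ L := gauss_diff (C := ‖y‖) (by have := h.cont y; fun_prop) fun r => by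
    rw [innerSL_apply_norm, h.nrm]
  have hL' : Differentiable ℂ fun z : ℂ => L (exp (c * z) * s) := hL.comp (by fun_prop)
  have k := zero_low (f := fun z => L 0 (ψ z) - L (exp (c * z) * s) (φ z))
    (((differentiableOn_const _).clm_apply b1).sub (hL'.differentiableOn.clm_apply a1))
    ((continuousOn_const.clm_apply b2).sub (hL'.continuous.continuousOn.clm_apply a2))
    fun t => by
      have e1 : exp (c * t) * s = ((Real.exp (c * t) * s : ℝ) : ℂ) := by push_cast; rfl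
      show L 0 (ψ t) - L _ (φ t) = 0
      rw [b3, a3, e, h.dil, e1, h.int, h.int, h.shift, sub_self]
  have e2 : exp (c * -(I / 2)) * s = ((-s : ℝ) : ℂ) := by
    have e3 : exp (c * -(I / 2)) = -1 := by
      rcases hc with rfl | rfl
      · rw [← Complex.exp_neg_pi_mul_I]
        congr 1
        push_cast
        ring
      · rw [← Complex.exp_pi_mul_I]
        congr 1
        push_cast
        ring
    rw [e3]
    push_cast
    ring
  have k' : L 0 (ψ (-(I / 2))) - L (exp (c * -(I / 2)) * s) (φ (-(I / 2))) = 0 := k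
  rw [b4, a4, e2, h.int, h.int, h.shift] at k'
  exact sub_eq_zero.1 k'

theorem Dil.vec (h : Dil E c W) (hc : c = 2 * Real.pi ∨ c = -(2 * Real.pi)) {s : ℝ}
    {X Y : H →L[ℂ] H} (hX : X ∈ M) (hY : Y ∈ M) (e : Y ξ = W s (X ξ)) :
    E.J (star Y ξ) = W (-s) (E.J (star X ξ)) := by
  refine ext_inner_left ℂ fun y => ?_
  let F : H → ℝ → ℂ := fun v a => ∫ r : ℝ, exp (-((r : ℂ) + 0) ^ 2) * inner ℂ (W (a * r) y) v
  have hF : ∀ v, Continuous (F v) := fun v => by
    have hw := h.cont y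
    refine continuous_of_dominated (bound := fun r : ℝ => ‖exp (-((r : ℂ) + 0) ^ 2)‖ * (‖y‖ * ‖v‖))
      (fun a => Continuous.aestronglyMeasurable (by fun_prop)) (fun a => ae_of_all _ fun r => ?_)
      ?_ (ae_of_all _ fun r => by fun_prop)
    · rw [norm_mul]
      gcongr
      exact (norm_inner_le_norm _ _).trans (by rw [h.nrm])
    · simpa using (integrable_cexp_quadratic (b := 1) (by simp) 0 0).norm.mul_const (‖y‖ * ‖v‖)
  have h1 : EqOn (F (E.J (star Y ξ))) (F (W (-s) (E.J (star X ξ)))) (Ioi 0) := fun a ha => by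
    have h2 := (h.scale a).avg hc (s := a⁻¹ * s) hX hY
      (by rw [mul_inv_cancel_left₀ (ne_of_gt ha)]; exact e) y
    rwa [mul_neg, mul_inv_cancel_left₀ (ne_of_gt ha)] at h2
  have h2 := h1.closure (hF _) (hF _) (show (0 : ℝ) ∈ closure (Ioi 0) by simp)
  simp only [F, zero_mul, h.zero, integral_mul_const] at h2
  refine mul_left_cancel₀ ?_ h2
  have h3 := integral_gaussian_complex (b := 1) (by simp)
  simp only [add_zero]
  simp only [neg_mul, one_mul] at h3
  rw [h3]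
  simp [Real.pi_ne_zero]

/-- **The modular conjugation inverts the group.** -/
theorem Dil.conj (h : Dil E c W) (hc : c = 2 * Real.pi ∨ c = -(2 * Real.pi)) {s : ℝ}
    (hW : ∀ s, Continuous (W s))
    (hd : Dense {z | ∃ X ∈ M, X ξ = z ∧ ∃ Y ∈ M, Y ξ = W s (X ξ) ∧
      star Y ξ = W s (star X ξ)}) (z : H) : E.J (W s z) = W (-s) (E.J z) := by
  refine congrFun (Continuous.ext_on hd (E.J.continuous.comp (hW s))
    ((hW (-s)).comp E.J.continuous) ?_) z
  rintro _ ⟨X, hX, rfl, Y, hY, e1, e2⟩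
  have k := h.vec hc (star_mem hX) (star_mem hY) e2
  rw [star_star, star_star, e1] at k
  exact k

end Vale.Agent.P352G42
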